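import Vale.Agent.P113.Compile
import Vale.Agent.P113.H468.Geo3

/-!
# P113: halting detection by particle trajectories of forced Navier-Stokes flows from rest

There are a rational point `a`, an open box with rational corners and one force compiler `C` such
that for every viscosity `ν > 0`, every machine `M` and every input `w` the Navier-Stokes system on
the flat three-torus with force `C (M, w)`, started from rest, has a global smooth solution, unique
among the classical solutions, whose trajectory from `a` meets the image of the box if and only if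
`M` halts on `w`.
-/

open Set Vale.Agent.P113
open scoped ContDiff

/-- Halting of machines is detected by the trajectory of one point in Navier-Stokes flows on the
flat three-torus, started from rest and driven by compiled forces. -/
theorem Vale.Agent.Results.P113.HaltingDetection.result :
    ∃ (a lo hi : Fin 3 → ℚ) (C : Machine × List ℕ → Fin 3 → List Term),
      (∀ i, lo i < hi i) ∧ IsCompiler C ∧
      ∀ ν : ℝ, 0 < ν → ∀ (M : Machine) (w : List ℕ),
        ContDiff ℝ ∞ (fun z : ℝ × (Fin 3 → ℝ) => force ν (C (M, w)) z.1 z.2) ∧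
        ∃ (u : ℝ → (Fin 3 → ℝ) → Fin 3 → ℝ) (p : ℝ → (Fin 3 → ℝ) → ℝ) (X : ℝ → Fin 3 → ℝ),
          ContDiff ℝ ∞ (fun z : ℝ × (Fin 3 → ℝ) => u z.1 z.2) ∧
          ContDiff ℝ ∞ (fun z : ℝ × (Fin 3 → ℝ) => p z.1 z.2) ∧
          (∀ T > 0, IsClassical ν (force ν (C (M, w))) T u p) ∧
          (∀ T > 0, ∀ v q, IsClassical ν (force ν (C (M, w))) T v q →
            ∀ t ∈ Icc 0 T, v t = u t ∧ q t = p t) ∧
          IsTrajectory u (fun i => (a i : ℝ)) X ∧
          (∀ Y, IsTrajectory u (fun i => (a i : ℝ)) Y → ∀ t, 0 ≤ t → Y t = X t) ∧
          ((∃ t, 0 ≤ t ∧ X t ∈ boxImage lo hi) ↔ Halts M w) :=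
  main_of exists_geomField compilerExists
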